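import Vale.Agent.P129BX.Names
import Vale.Agent.P129BZ.Zorn

/-!
# A generic extension is a model of ZFC
-/

set_option linter.unusedSectionVars false

namespace Vale.Agent.P129B

open Vale.Agent.P323.Z

universe v w

variable {N : Type v} [ZM N] {P : Type*} [Coded N P] [Tot N P] [Preorder P] [OrderTop P] [DefLE N P]

/-- Induction on names. -/
theorem name_ind {Q : N → Prop} (hQ : DefF N Q) (h : ∀ t, (∀ u y : N, op u y ∈ t → Q u) → Q t)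
    (t : N) : Q t := by
  refine (mem_ind (Q := fun x => Q x ∧ ∀ y, y ∈ x → Q y ∧ ∀ z, z ∈ y → Q z) (by fun_prop)
    (fun x ih => ⟨h x fun u y hu => ?_,
      fun y hy => ⟨(ih y hy).1, fun z hz => ((ih y hy).2 z hz).1⟩⟩) t).1
  exact ((ih _ hu).2 (upair u u) (mem_upair.2 (Or.inl rfl))).2 u (mem_upair.2 (Or.inl rfl))

theorem exists_ent_min {Q : N → Prop} (hQ : DefF N Q) {t : N} (ht : Q t) :
    ∃ t, Q t ∧ ∀ u y : N, op u y ∈ t → ¬ Q u :=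
  by_contra fun c => name_ind hQ.not (fun y e d => c ⟨y, d, e⟩) t ht

theorem isOPair_inj {M : Type*} {E : M → M → Prop} {p a b x y : M} (h : IsOPair E p a b)
    (k : IsOPair E p x y) : a = x ∧ b = y := by
  obtain ⟨s, t, h1, h2, h3⟩ := h
  obtain ⟨s', t', k1, k2, k3⟩ := k
  have e : a = x := by
    rcases (k3 s).1 ((h3 s).2 (Or.inl rfl)) with rfl | rfl
    · exact ((k1 a).1 ((h1 a).2 (Or.inl rfl))).elim id id
    · exact (((h1 x).1 ((k2 x).2 (Or.inl rfl))).elim id id).symm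
  subst e
  refine ⟨rfl, ?_⟩
  have hb := (h2 b).2 (Or.inr rfl)
  have hy := (k2 y).2 (Or.inr rfl)
  rcases (k3 t).1 ((h3 t).2 (Or.inr rfl)) with rfl | rfl
  · obtain rfl : b = a := ((k1 b).1 hb).elim id id
    rcases (h3 t').1 ((k3 t').2 (Or.inr rfl)) with rfl | rfl
    · exact (((h1 y).1 hy).elim id id).symm
    · exact (((h2 y).1 hy).elim id id).symm
  · rcases (k2 b).1 hb with rfl | e
    · exact (((h2 y).1 hy).elim id id).symm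
    · exact e

theorem intl_memSet (A : N) : Intl N {t : N | t ∈ A} :=
  intl_set.2 ⟨fun _ _ => inferInstance, A, fun x => by simp⟩

namespace FI

variable {g : Gen N P} {M : Type w} {E : M → M → Prop} {val : N → M} (h : FI g E val)
include h

theorem foundation (x : M) (hx : ∃ y, E y x) : ∃ y, E y x ∧ ∀ z, E z x → ¬ E z y := by
  obtain ⟨s, rfl⟩ := h.surj x
  obtain ⟨y, hy⟩ := hx
  obtain ⟨t₀, rfl⟩ := h.surj y
  obtain ⟨F, hF⟩ := h.forces_mem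
  obtain ⟨p₀, hp₀, h₀⟩ := (hF.truth t₀ s).1 hy
  have hd := hF.defF
  obtain ⟨p, hp, t, h1, h2⟩ := g.meets_below hp₀
    (fun p => ∃ t : N, F p t s ∧ ∀ u y : N, op u y ∈ t → ∀ q, q ≤ p → ¬ F q u s) (by fun_prop)
    fun p hp => by
      obtain ⟨t, ⟨q, h1, h2⟩, h3⟩ := exists_ent_min (Q := fun t : N => ∃ q, q ≤ p ∧ F q t s)
        (by fun_prop) ⟨p, le_rfl, hF.mono h₀ hp⟩
      exact ⟨q, h1, t, h2, fun u y hu r hr hf => h3 u y hu ⟨r, hr.trans h1, hf⟩⟩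
  refine ⟨val t, (hF.truth t s).2 ⟨p, hp, h1⟩, fun z hz hz' => ?_⟩
  obtain ⟨u, c, -, h3, rfl⟩ := (h.mem_val _ _).1 hz'
  obtain ⟨q, hq, h4⟩ := (hF.truth u s).1 hz
  obtain ⟨r, -, h5, h6⟩ := g.dir hp hq
  exact h2 u _ h3 r h5 (hF.mono h4 h6)

theorem pairing (x y : M) : ∃ p, E x p ∧ E y p := by
  obtain ⟨s, rfl⟩ := h.surj x
  obtain ⟨t, rfl⟩ := h.surj y
  exact ⟨_, (h.isUPair_upN s t _).2 (Or.inl rfl), (h.isUPair_upN s t _).2 (Or.inr rfl)⟩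

theorem union (x : M) : ∃ u, ∀ y z, E y x → E z y → E z u := by
  obtain ⟨s, rfl⟩ := h.surj x
  refine ⟨val (setN P (sUnion (imgN (domN P s) (domN P)))), fun y z hy hz => ?_⟩
  obtain ⟨t, ht, rfl⟩ := h.exists_dom hy
  obtain ⟨u, hu, rfl⟩ := h.exists_dom hz
  exact h.mem_setN.2 ⟨u, mem_sUnion.2 ⟨_, (mem_imgN (by fun_prop)).2 ⟨t, ht, rfl⟩, hu⟩, rfl⟩

/-- A subset of `val s` has a name whose entries come from the domain of `s`. -/
theorem exists_subname {s : N} {z : M} (hz : ∀ w, E w z → E w (val s)) :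
    ∃ R : N → P → Prop, DefF N (fun x : N × P => R x.1 x.2) ∧ z = val (relN (domN P s) R) := by
  obtain ⟨t, rfl⟩ := h.surj z
  obtain ⟨F, hF⟩ := h.forces_mem
  have hd := hF.defF
  have hR : DefF N (fun x : N × P => F x.2 x.1 t) := by fun_prop
  refine ⟨fun u c => F c u t, hR, h.ext _ _ fun w => ?_⟩
  rw [h.mem_relN hR]
  constructor
  · intro hw
    obtain ⟨u, hu, rfl⟩ := h.exists_dom (hz w hw)
    obtain ⟨c, hc, h1⟩ := (hF.truth u t).1 hw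
    exact ⟨u, c, hu, hc, h1, rfl⟩
  · rintro ⟨u, c, -, hc, h1, rfl⟩
    exact (hF.truth u t).2 ⟨c, hc, h1⟩

theorem powerSet (x : M) : ∃ p, ∀ z, (∀ w, E w z → E w x) → E z p := by
  obtain ⟨s, rfl⟩ := h.surj x
  refine ⟨val (setN P (pow (pow (pow (un (domN P s) (condN N P)))))), fun z hz => ?_⟩
  obtain ⟨R, hR, rfl⟩ := h.exists_subname hz
  refine h.mem_setN.2 ⟨_, mem_pow.2 fun w hw => ?_, rfl⟩
  obtain ⟨t, c, h1, -, rfl⟩ := (P129B.mem_relN hR).1 hw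
  exact op_mem_pow h1 (mem_condN.2 ⟨c, rfl⟩)

theorem mem_succ (t : N) (z : M) :
    E z (val (ins (op t (code N (⊤ : P))) t)) ↔ E z (val t) ∨ z = val t := by
  simp only [h.mem_val, mem_ins]
  constructor
  · rintro ⟨u, c, h1, h2 | h2, h3⟩
    · exact Or.inl ⟨u, c, h1, h2, h3⟩
    · exact Or.inr ((op_inj.1 h2).1 ▸ h3)
  · rintro (⟨u, c, h1, h2, h3⟩ | h3)
    · exact ⟨u, c, h1, Or.inl h2, h3⟩
    · exact ⟨t, ⊤, g.top, Or.inr rfl, h3⟩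

theorem infinity : ∃ w, (∃ e, E e w ∧ ∀ z, ¬ E z e) ∧
    ∀ x, E x w → ∃ s, E s w ∧ ∀ z, E z s ↔ E z x ∨ z = x := by
  let f : NN N → N := irec (emp N) fun _ t => ins (op t (code N (⊤ : P))) t
  have hf : Intl N f := DefF.toIntl (DefF.irec (z := fun _ : NN N => emp N)
    (s := fun _ _ t => ins (op t (code N (⊤ : P))) t) (n := fun n => n) (by fun_prop) (by fun_prop)
    (by fun_prop))
  have key : ∀ x, E x (val (setN P (code N (Set.range f)))) ↔ ∃ n, x = val (f n) := fun x => by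
    simp only [h.mem_setN, mem_code_set (intl_range f)]
    exact ⟨fun ⟨_, ⟨_, ⟨n, rfl⟩, rfl⟩, e⟩ => ⟨n, e⟩, fun ⟨n, e⟩ => ⟨_, ⟨_, ⟨n, rfl⟩, rfl⟩, e⟩⟩
  refine ⟨_, ⟨_, (key _).2 ⟨0, rfl⟩, fun z hz => ?_⟩, fun x hx => ?_⟩
  · obtain ⟨t, c, -, h2, -⟩ := (h.mem_val _ _).1 hz
    rw [show f 0 = emp N from irec_zero _ _] at h2
    exact not_mem_emp _ h2
  · obtain ⟨n, rfl⟩ := (key _).1 hx
    refine ⟨_, (key _).2 ⟨n.succ, rfl⟩, fun z => ?_⟩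
    rw [show f n.succ = ins (op (f n) (code N (⊤ : P))) (f n) from irec_succ' (by fun_prop) n]
    exact h.mem_succ _ z

theorem separation (n : ℕ) (φ : Fml (n + 1)) (v : Fin n → M) (a : M) :
    ∃ b, ∀ x, E x b ↔ E x a ∧ φ.Sat E (Fin.snoc v x) := by
  obtain ⟨v, rfl⟩ := h.exists_names v
  obtain ⟨s, rfl⟩ := h.surj a
  obtain ⟨F, hF⟩ := h.truth₁ φ v
  have hd := hF.defF
  have hR : DefF N (fun x : N × P =>
      (∃ d : P, op x.1 (code N d) ∈ s ∧ x.2 ≤ d) ∧ F x.2 x.1 x.1) := by fun_prop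
  refine ⟨val (relN (domN P s) fun u c => (∃ d : P, op u (code N d) ∈ s ∧ c ≤ d) ∧ F c u u),
    fun x => ?_⟩
  rw [h.mem_relN hR]
  constructor
  · rintro ⟨u, c, -, hc, ⟨⟨d, h1, h2⟩, h3⟩, rfl⟩
    exact ⟨h.val_mem (g.up hc h2) h1, (hF.truth u u).2 ⟨c, hc, h3⟩⟩
  · rintro ⟨h1, h2⟩
    obtain ⟨u, d, hd, h3, rfl⟩ := (h.mem_val _ _).1 h1
    obtain ⟨p, hp, h4⟩ := (hF.truth u u).1 h2
    obtain ⟨c, hc, h5, h6⟩ := g.dir hd hp
    exact ⟨u, c, mem_domN.2 ⟨d, h3⟩, hc, ⟨⟨d, h3, h5⟩, hF.mono h4 h6⟩, rfl⟩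

theorem collection (n : ℕ) (φ : Fml (n + 2)) (v : Fin n → M) (a : M)
    (H : ∀ x, E x a → ∃ y, φ.Sat E (Fin.snoc (Fin.snoc v x : Fin (n + 1) → M) y)) :
    ∃ b, ∀ x, E x a → ∃ y, E y b ∧ φ.Sat E (Fin.snoc (Fin.snoc v x : Fin (n + 1) → M) y) := by
  obtain ⟨v, rfl⟩ := h.exists_names v
  obtain ⟨s, rfl⟩ := h.surj a
  obtain ⟨F, hF⟩ := h.truth n φ v
  have hd := hF.defF
  obtain ⟨B, hB, e⟩ := exists_defF_bound (N := N) (R := fun (x : N × P) t => F x.2 x.1 t)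
    (by fun_prop)
  have hC : DefF N (fun u : N => sUnion (code N (Set.range fun c : P => B (u, c)))) := by fun_prop
  refine ⟨val (setN P (sUnion (imgN (domN P s)
    fun u => sUnion (code N (Set.range fun c : P => B (u, c)))))), fun x hx => ?_⟩
  obtain ⟨u, hu, rfl⟩ := h.exists_dom hx
  obtain ⟨y, hy⟩ := H _ hx
  obtain ⟨t, rfl⟩ := h.surj y
  obtain ⟨p, hp, h1⟩ := (hF.truth u t).1 hy
  obtain ⟨t', h2, h3⟩ := e (u, p) inferInstance ⟨t, h1⟩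
  refine ⟨val t', h.mem_setN.2 ⟨t', mem_sUnion.2 ⟨_, (mem_imgN hC).2 ⟨u, hu, rfl⟩,
    mem_sUnion.2 ⟨B (u, p), ?_, h2⟩⟩, rfl⟩, (hF.truth u t').2 ⟨p, hp, h3⟩⟩
  have h4 : Intl N (fun c : P => B (u, c)) := DefF.toIntl (by fun_prop)
  exact (mem_code_set (intl_range _)).2 ⟨_, ⟨p, rfl⟩, rfl⟩

theorem zf : IsZFModel E :=
  WeakZF.isZFModel ⟨h.ext, h.foundation, h.pairing, h.union, h.powerSet, h.infinity, h.separation,
    h.collection⟩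

theorem ac : AC E := by
  intro x hx
  obtain ⟨s, rfl⟩ := h.surj x
  obtain ⟨U, hU⟩ := h.zf.union (val s)
  obtain ⟨F, hF⟩ := h.forces_mem
  have hd := hF.defF
  let B : N := sUnion (imgN (domN P s) (domN P))
  have hB := intl_memSet B
  obtain ⟨lt, l1, l2, l3, l4, l5⟩ := exists_defF_wo (N := N) {t : N | t ∈ B}
  let T : P → N → N → Prop := fun c u t => (∃ d : P, op u (code N d) ∈ s ∧ c ≤ d) ∧ t ∈ B ∧
    F c t u ∧ ∀ t' : N, t' ∈ B → lt t' t → ∀ q, q ≤ c → ¬ F q t' u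
  have hR : DefF N (fun x : N × P => ∃ u t : N, x.1 = opN P u t ∧ T x.2 u t) := by
    simp only [T]
    fun_prop
  let A : N := sUnion (imgN (domN P s) fun u => imgN B fun t => opN P u t)
  have key : ∀ p, E p (val (relN A fun w c => ∃ u t : N, w = opN P u t ∧ T c u t)) ↔
      ∃ c ∈ g.G, ∃ u t, T c u t ∧ p = val (opN P u t) := fun p => by
    rw [h.mem_relN hR]
    constructor
    · rintro ⟨_, c, -, hc, ⟨u, t, rfl, h1⟩, rfl⟩
      exact ⟨c, hc, u, t, h1, rfl⟩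
    · rintro ⟨c, hc, u, t, h1, rfl⟩
      obtain ⟨d, h2, -⟩ := h1.1
      exact ⟨_, c, mem_sUnion.2 ⟨_, (mem_imgN (by fun_prop)).2 ⟨u, mem_domN.2 ⟨d, h2⟩, rfl⟩,
        (mem_imgN (by fun_prop)).2 ⟨t, h1.2.1, rfl⟩⟩, hc, ⟨u, t, rfl, h1⟩, rfl⟩
  have key2 : ∀ a b, PairMem E a b (val (relN A fun w c => ∃ u t : N, w = opN P u t ∧ T c u t)) ↔
      ∃ c ∈ g.G, ∃ u t, T c u t ∧ val u = a ∧ val t = b := fun a b => by
    constructor
    · rintro ⟨p, h1, h2⟩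
      obtain ⟨c, hc, u, t, h3, rfl⟩ := (key p).1 h2
      exact ⟨c, hc, u, t, h3, isOPair_inj (h.isOPair_opN u t) h1⟩
    · rintro ⟨c, hc, u, t, h3, rfl, rfl⟩
      exact ⟨_, h.isOPair_opN u t, (key _).2 ⟨c, hc, u, t, h3, rfl⟩⟩
  refine ⟨val (relN A fun w c => ∃ u t : N, w = opN P u t ∧ T c u t), U,
    ⟨fun p hp => ?_, fun a ha => ?_⟩, fun a b hab => ?_⟩
  rotate_left 2
  · obtain ⟨c, hc, u, t, h1, rfl, rfl⟩ := (key2 a b).1 hab
    exact (hF.truth t u).2 ⟨c, hc, h1.2.2.1⟩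
  · obtain ⟨c, hc, u, t, ⟨⟨d, h1, h2⟩, -, h3, -⟩, rfl⟩ := (key p).1 hp
    have h4 := h.val_mem (g.up hc h2) h1
    exact ⟨_, _, h4, (hU _).2 ⟨_, h4, (hF.truth t u).2 ⟨c, hc, h3⟩⟩, h.isOPair_opN u t⟩
  · obtain ⟨y, hy⟩ := hx a ha
    obtain ⟨u, d, hd, h1, rfl⟩ := (h.mem_val _ _).1 ha
    obtain ⟨t₀, h2, rfl⟩ := h.exists_dom hy
    have h3 : t₀ ∈ B :=
      mem_sUnion.2 ⟨_, (mem_imgN (by fun_prop)).2 ⟨u, mem_domN.2 ⟨d, h1⟩, rfl⟩, h2⟩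
    obtain ⟨p₀, hp₀, h4⟩ := (hF.truth t₀ u).1 hy
    obtain ⟨p₁, hp₁, h5, h6⟩ := g.dir hd hp₀
    obtain ⟨c, hc, t, h7⟩ := g.meets_below hp₁ (fun c => ∃ t : N, T c u t)
      (by simp only [T]; fun_prop) fun p hp => by
        obtain ⟨t, ⟨h7, q, h8, h9⟩, h10⟩ := l5 {t | t ∈ {t : N | t ∈ B} ∧ ∃ q, q ≤ p ∧ F q t u}
          (intl_sep (by fun_prop) _) (fun _ h => h.1) ⟨t₀, h3, p, le_rfl, hF.mono h4 (hp.trans h6)⟩
        refine ⟨q, h8, t, ⟨d, h1, h8.trans (hp.trans h5)⟩, h7, h9, fun t' ht' hlt r hr hf => ?_⟩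
        rcases h10 t' ⟨ht', r, hr.trans h8, hf⟩ with rfl | h11
        exacts [l2 _ hlt, l2 _ (l3 _ _ _ hlt h11)]
    refine ⟨val t, (key2 _ _).2 ⟨c, hc, u, t, h7, rfl, rfl⟩, fun y hy => ?_⟩
    obtain ⟨c', hc', u', t', h8, h9, rfl⟩ := (key2 _ _).1 hy
    have aux : ∀ {c c' u u' t t'}, c ∈ g.G → c' ∈ g.G → T c u t → T c' u' t' → val u' = val u →
        ¬ lt t' t := by
      intro c c' u u' t t' hc hc' k1 k2 e hlt
      have k3 := (hF.truth t' u').2 ⟨c', hc', k2.2.2.1⟩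
      rw [e] at k3
      obtain ⟨q, hq, k4⟩ := (hF.truth t' u).1 k3
      obtain ⟨r, -, k5, k6⟩ := g.dir hc hq
      exact k1.2.2.2 t' k2.2.1 hlt r k5 (hF.mono k4 k6)
    rcases l4 t h7.2.1 t' h8.2.1 with rfl | h10 | h10
    · rfl
    · exact absurd h10 (aux hc' hc h8 h7 h9.symm)
    · exact absurd h10 (aux hc hc' h7 h8 h9)

/-- The generic extension as a model of ZFC. -/
@[reducible] def zm : ZM M := ⟨E, h.zf, h.ac⟩

end FI

end Vale.Agent.P129B
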