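import Vale.Agent.P129BX.Gen
import Vale.Agent.P129BW.Main
import Vale.Agent.P323.Z.Sentences

/-!
# The interface of a generic extension; basic names
-/

set_option linter.unusedSectionVars false

namespace Vale.Agent.P129B

open Vale.Agent.P323.Z

universe v w

variable {N : Type v} [ZM N] {P : Type*} [Coded N P] [Tot N P] [Preorder P] [OrderTop P]

/-- `F` is a definable monotone forcing relation for the relation `R` between two names. -/
structure Gen.Forces (g : Gen N P) (F : P → N → N → Prop) (R : N → N → Prop) : Prop where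
  defF : DefF N (fun x : P × N × N => F x.1 x.2.1 x.2.2)
  mono : ∀ {p q : P} {a b : N}, F p a b → q ≤ p → F q a b
  truth : ∀ a b, R a b ↔ ∃ p ∈ g.G, F p a b

theorem Gen.Forces.comp {g : Gen N P} {F : P → N → N → Prop} {R : N → N → Prop}
    (h : g.Forces F R) {α : Type*} [Coded N α] {p : α → P} {a b : α → N} (hp : DefF N p)
    (ha : DefF N a) (hb : DefF N b) : DefF N (fun x => F (p x) (a x) (b x)) :=
  DefF.comp (f := fun x : P × N × N => F x.1 x.2.1 x.2.2) (g := fun x => (p x, a x, b x)) h.defF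
    (by fun_prop)

/-- `(M, E)` is a generic extension of `N` by `g`, `val` evaluates the names. -/
structure FI (g : Gen N P) {M : Type w} (E : M → M → Prop) (val : N → M) : Prop where
  surj : Function.Surjective val
  mem_val : ∀ x s, E x (val s) ↔ ∃ t c, c ∈ g.G ∧ op t (code N c) ∈ s ∧ x = val t
  ext : ∀ x y, (∀ z, E z x ↔ E z y) → x = y
  truth : ∀ (n : ℕ) (φ : Fml (n + 2)) (v : Fin n → N), ∃ F : P → N → N → Prop, g.Forces F
    fun a b => φ.Sat E (Fin.snoc (Fin.snoc (val ∘ v) (val a) : Fin (n + 1) → M) (val b))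

variable (P) in
/-- the set of the names which occur in a name -/
noncomputable def domN (s : N) : N := sepN (sUnion (sUnion s)) fun t => ∃ c : P, op t (code N c) ∈ s

theorem mem_domN {s t : N} : t ∈ domN P s ↔ ∃ c : P, op t (code N c) ∈ s := by
  rw [domN, mem_sepN (by fun_prop)]
  exact ⟨fun h => h.2, fun h => ⟨mem_op_left h.choose_spec, h⟩⟩

@[fun_prop] theorem DefF.domN {α : Type*} [Coded N α] {s : α → N} (hs : DefF N s) :
    DefF N (fun a => domN P (s a)) := by
  unfold P129B.domN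
  fun_prop

variable (N P) in
/-- the set of the codes of the conditions -/
noncomputable def condN : N := code N (Set.univ : Set P)

theorem mem_condN {x : N} : x ∈ condN N P ↔ ∃ c : P, code N c = x := by
  rw [condN, mem_code_set inferInstance]
  simp

/-- the name with the entries `(t, c)`, where `t ∈ A` and `R t c` -/
noncomputable def relN (A : N) (R : N → P → Prop) : N :=
  sepN (pow (pow (un A (condN N P)))) fun z => ∃ (t : N) (c : P), t ∈ A ∧ R t c ∧ z = op t (code N c)

theorem op_mem_pow {A B x y : N} (hx : x ∈ A) (hy : y ∈ B) : op x y ∈ pow (pow (un A B)) := by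
  simp only [mem_pow, op, mem_upair, mem_un]
  rintro w (rfl | rfl) z hz
  · rw [mem_upair, or_self] at hz; exact Or.inl (hz ▸ hx)
  · rcases mem_upair.1 hz with rfl | rfl
    · exact Or.inl hx
    · exact Or.inr hy

theorem mem_relN {A z : N} {R : N → P → Prop} (hR : DefF N (fun x : N × P => R x.1 x.2)) :
    z ∈ relN A R ↔ ∃ (t : N) (c : P), t ∈ A ∧ R t c ∧ z = op t (code N c) := by
  rw [relN, mem_sepN (by fun_prop)]
  refine ⟨fun h => h.2, fun h => ⟨?_, h⟩⟩
  obtain ⟨t, c, h1, -, rfl⟩ := h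
  exact op_mem_pow h1 (mem_condN.2 ⟨c, rfl⟩)

theorem op_mem_relN {A t : N} {c : P} {R : N → P → Prop}
    (hR : DefF N (fun x : N × P => R x.1 x.2)) :
    op t (code N c) ∈ relN A R ↔ t ∈ A ∧ R t c := by
  rw [mem_relN hR]
  refine ⟨fun ⟨u, d, h1, h2, h3⟩ => ?_, fun h => ⟨t, c, h.1, h.2, rfl⟩⟩
  obtain ⟨rfl, h4⟩ := op_inj.1 h3
  rw [code_inj inferInstance inferInstance h4]
  exact ⟨h1, h2⟩

@[fun_prop] theorem DefF.relN {α : Type*} [Coded N α] {A : α → N} {R : α → N → P → Prop}
    (hA : DefF N A) (hR : DefF N (fun x : α × N × P => R x.1 x.2.1 x.2.2)) :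
    DefF N (fun a => relN (A a) (R a)) := by
  have h : DefF N (fun x : ((α × N) × N) × P => R x.1.1.1 x.1.2 x.2) :=
    DefF.comp (f := fun x : α × N × P => R x.1 x.2.1 x.2.2)
      (g := fun x : ((α × N) × N) × P => (x.1.1.1, x.1.2, x.2)) hR (by fun_prop)
  unfold P129B.relN
  refine DefF.sepN (by fun_prop) (DefF.exN (DefF.exT (DefF.and ?_ (DefF.and h ?_)))) <;> fun_prop

variable (P) in
/-- the name for the set of the values of the members of `A` -/
noncomputable def setN (A : N) : N := imgN A fun t => op t (code N (⊤ : P))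

@[fun_prop] theorem DefF.setN {α : Type*} [Coded N α] {A : α → N} (hA : DefF N A) :
    DefF N (fun a => setN P (A a)) := by
  unfold P129B.setN
  fun_prop

theorem op_mem_setN {A t : N} {c : P} : op t (code N c) ∈ setN P A ↔ t ∈ A ∧ c = ⊤ := by
  rw [setN, mem_imgN (by fun_prop)]
  refine ⟨fun ⟨u, h1, h2⟩ => ?_, fun h => ⟨t, h.1, by rw [h.2]⟩⟩
  obtain ⟨rfl, h4⟩ := op_inj.1 h2
  exact ⟨h1, code_inj inferInstance inferInstance h4⟩

variable (P) in
/-- the name for an unordered pair -/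
noncomputable def upN (s t : N) : N := setN P (upair s t)

variable (P) in
/-- the name for an ordered pair -/
noncomputable def opN (s t : N) : N := upN P (upN P s s) (upN P s t)

@[fun_prop] theorem DefF.upN {α : Type*} [Coded N α] {s t : α → N} (hs : DefF N s)
    (ht : DefF N t) : DefF N (fun a => upN P (s a) (t a)) := by
  unfold P129B.upN
  fun_prop

@[fun_prop] theorem DefF.opN {α : Type*} [Coded N α] {s t : α → N} (hs : DefF N s)
    (ht : DefF N t) : DefF N (fun a => opN P (s a) (t a)) := by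
  unfold P129B.opN
  fun_prop

namespace FI

variable {g : Gen N P} {M : Type w} {E : M → M → Prop} {val : N → M} (h : FI g E val)
include h

theorem val_mem {s t : N} {c : P} (hc : c ∈ g.G) (ht : op t (code N c) ∈ s) :
    E (val t) (val s) := (h.mem_val _ _).2 ⟨t, c, hc, ht, rfl⟩

theorem exists_dom {x : M} {s : N} (hx : E x (val s)) : ∃ t, t ∈ domN P s ∧ x = val t := by
  obtain ⟨t, c, -, h2, h3⟩ := (h.mem_val _ _).1 hx
  exact ⟨t, mem_domN.2 ⟨c, h2⟩, h3⟩

theorem mem_relN {A : N} {R : N → P → Prop} (hR : DefF N (fun x : N × P => R x.1 x.2)) {x : M} :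
    E x (val (relN A R)) ↔ ∃ t c, t ∈ A ∧ c ∈ g.G ∧ R t c ∧ x = val t := by
  simp only [h.mem_val, op_mem_relN hR]
  exact ⟨fun ⟨t, c, h1, ⟨h2, h3⟩, h4⟩ => ⟨t, c, h2, h1, h3, h4⟩,
    fun ⟨t, c, h2, h1, h3, h4⟩ => ⟨t, c, h1, ⟨h2, h3⟩, h4⟩⟩

theorem mem_setN {A : N} {x : M} : E x (val (setN P A)) ↔ ∃ t, t ∈ A ∧ x = val t := by
  simp only [h.mem_val, op_mem_setN]
  exact ⟨fun ⟨t, _, _, h2, h4⟩ => ⟨t, h2.1, h4⟩, fun ⟨t, h1, h2⟩ => ⟨t, ⊤, g.top, ⟨h1, rfl⟩, h2⟩⟩

theorem isUPair_upN (s t : N) : IsUPair E (val (upN P s t)) (val s) (val t) := fun z => by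
  rw [upN, h.mem_setN]
  simp only [mem_upair]
  exact ⟨fun ⟨_, h1, h2⟩ => h1.imp (fun e => h2.trans (congrArg val e))
      (fun e => h2.trans (congrArg val e)),
    fun h1 => h1.elim (fun e => ⟨s, Or.inl rfl, e⟩) (fun e => ⟨t, Or.inr rfl, e⟩)⟩

theorem isOPair_opN (s t : N) : IsOPair E (val (opN P s t)) (val s) (val t) :=
  ⟨_, _, h.isUPair_upN s s, h.isUPair_upN s t, h.isUPair_upN _ _⟩

/-- forcing of membership -/
theorem forces_mem : ∃ F : P → N → N → Prop, g.Forces F fun a b => E (val a) (val b) :=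
  h.truth 0 (.mem 0 1) Fin.elim0

/-- forcing of equality -/
theorem forces_eq : ∃ F : P → N → N → Prop, g.Forces F fun a b => val a = val b :=
  h.truth 0 (.eq 0 1) Fin.elim0

theorem exists_names {n : ℕ} (v : Fin n → M) : ∃ w : Fin n → N, v = val ∘ w := by
  choose w hw using fun i => h.surj (v i)
  exact ⟨w, funext fun i => (hw i).symm⟩

/-- forcing of a formula with one free name -/
theorem truth₁ {n : ℕ} (φ : Fml (n + 1)) (v : Fin n → N) : ∃ F : P → N → N → Prop, g.Forces F
    fun a _ => φ.Sat E (Fin.snoc (val ∘ v) (val a)) := by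
  obtain ⟨F, h1, h2, h3⟩ := h.truth n (φ.rename Fin.castSucc) v
  refine ⟨F, h1, h2, fun a b => Iff.trans ?_ (h3 a b)⟩
  rw [Fml.sat_rename]
  exact iff_of_eq (congrArg _ (funext fun i => by simp))

end FI

end Vale.Agent.P129B
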