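import Vale.Agent.P129B.Ops

/-!
# Generic filters over a countable model of ZFC
-/

namespace Vale.Agent.P129B

universe v

/-- A filter on `P` which meets every definable dense set. -/
structure Gen (N : Type v) [ZM N] (P : Type*) [Coded N P] [Preorder P] [OrderTop P] where
  G : Set P
  top : ⊤ ∈ G
  up : ∀ {p q : P}, p ∈ G → p ≤ q → q ∈ G
  dir : ∀ {p q : P}, p ∈ G → q ∈ G → ∃ r ∈ G, r ≤ p ∧ r ≤ q
  meets : ∀ D : P → Prop, DefF N D → (∀ p, ∃ q, q ≤ p ∧ D q) → ∃ p ∈ G, D p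

variable {N : Type v} [ZM N] {P : Type*} [Coded N P] [Tot N P] [Preorder P] [OrderTop P]

theorem countable_intl [Countable N] (α : Type*) [Coded N α] : {a : α | Intl N a}.Countable :=
  Set.countable_of_injective_of_countable_image (f := code N)
    (fun _ ha _ hb h => code_inj ha hb h) (Set.to_countable _)

/-- Generic filters exist over countable models. -/
theorem exists_gen [Countable N] (p₀ : P) : ∃ g : Gen N P, p₀ ∈ g.G := by
  obtain ⟨e, he⟩ := (countable_intl (N := N) (Set P)).exists_eq_range ⟨∅, intl_empty⟩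
  have h : ∀ (n : ℕ) (p : P), ∃ q, q ≤ p ∧ ((∀ p, ∃ q, q ≤ p ∧ q ∈ e n) → q ∈ e n) := by
    intro n p
    by_cases hd : ∀ p, ∃ q, q ≤ p ∧ q ∈ e n
    · exact (hd p).imp fun q hq => ⟨hq.1, fun _ => hq.2⟩
    · exact ⟨p, le_rfl, fun h => absurd h hd⟩
  choose f hf using h
  let s : ℕ → P := fun n => Nat.rec p₀ f n
  have hs : Antitone s := antitone_nat_of_succ_le fun n => (hf n (s n)).1
  refine ⟨⟨{p | ∃ n, s n ≤ p}, ⟨0, le_top⟩, fun ⟨n, hn⟩ h => ⟨n, hn.trans h⟩,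
    fun ⟨n, hn⟩ ⟨m, hm⟩ => ⟨s (max n m), ⟨_, le_rfl⟩, (hs (le_max_left _ _)).trans hn,
      (hs (le_max_right _ _)).trans hm⟩, fun D hD hd => ?_⟩, 0, le_rfl⟩
  obtain ⟨n, hn⟩ : {p | D p} ∈ Set.range e := he ▸ intl_setOfT hD
  have h1 := (hf n (s n)).2
  rw [hn] at h1
  exact ⟨s (n + 1), ⟨n + 1, le_rfl⟩, h1 hd⟩

/-- A generic filter meets every definable set which is dense below one of its members. -/
theorem Gen.meets_below [DefLE N P] (g : Gen N P) {p₀ : P} (h₀ : p₀ ∈ g.G) (D : P → Prop)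
    (hD : DefF N D) (hd : ∀ p, p ≤ p₀ → ∃ q, q ≤ p ∧ D q) : ∃ p ∈ g.G, D p := by
  obtain ⟨p, hp, h | h⟩ := g.meets (fun p => D p ∨ ∀ q, q ≤ p → ¬ q ≤ p₀) (by fun_prop) fun p => by
    by_cases h : ∃ q, q ≤ p ∧ q ≤ p₀
    · obtain ⟨q, h1, h2⟩ := h
      obtain ⟨r, h3, h4⟩ := hd q h2
      exact ⟨r, h3.trans h1, Or.inl h4⟩
    · exact ⟨p, le_rfl, Or.inr fun q h1 h2 => h ⟨q, h1, h2⟩⟩
  · exact ⟨p, hp, h⟩
  · obtain ⟨r, -, h1, h2⟩ := g.dir hp h₀
    exact absurd h2 (h r h1)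

/-- The same, with a member below the given one. -/
theorem Gen.meets_le [DefLE N P] (g : Gen N P) {p₀ : P} (h₀ : p₀ ∈ g.G) (D : P → Prop)
    (hD : DefF N D) (hd : ∀ p, p ≤ p₀ → ∃ q, q ≤ p ∧ D q) : ∃ p ∈ g.G, p ≤ p₀ ∧ D p :=
  g.meets_below h₀ (fun p => p ≤ p₀ ∧ D p) (by fun_prop) fun p hp =>
    (hd p hp).imp fun _ hq => ⟨hq.1, hq.1.trans hp, hq.2⟩

/-- Either some member of the filter has the property, or some member has no extension with it. -/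
theorem Gen.decide [DefLE N P] (g : Gen N P) (D : P → Prop) (hD : DefF N D) :
    ∃ p ∈ g.G, D p ∨ ∀ q, q ≤ p → ¬ D q :=
  g.meets _ (by fun_prop) fun p => by
    by_cases h : ∃ q, q ≤ p ∧ D q
    · exact h.imp fun q hq => ⟨hq.1, Or.inl hq.2⟩
    · exact ⟨p, le_rfl, Or.inr fun q h1 h2 => h ⟨q, h1, h2⟩⟩

end Vale.Agent.P129B
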